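import Vale.Agent.P123.Bridge
import Vale.Agent.P123.Bound
import Vale.Agent.P123.CertTwo

open Polynomial
open scoped InnerProductSpace

namespace Vale.Agent.Results.P123.CrouzeixConstant228

universe u

/-- Crouzeix's constant is at most `2.28`. -/
theorem result : ∀ (H : Type u) [NormedAddCommGroup H] [InnerProductSpace ℂ H] [CompleteSpace H]
    [Nontrivial H] (A : H →L[ℂ] H) (p : ℂ[X]) (M : ℝ),
    (∀ x : H, ‖x‖ = 1 → ‖p.eval ⟪x, A x⟫_ℂ‖ ≤ M) → ‖aeval A p‖ ≤ 228 / 100 * M := by
  intro H _ _ _ _ A p M hM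
  refine Vale.Agent.P123.master (by norm_num) ?_ A p M hM
  intro K hK A Om hspec hne hsys
  have hK' : (57 / 25 : ℝ) ≤ K := by linarith
  exact Vale.Agent.P123.cert_false (by linarith) (by norm_num) (abs_nonneg _) hspec hne hsys
    (Vale.Agent.P123.cert_two hK')

end Vale.Agent.Results.P123.CrouzeixConstant228
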