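import Vale.Agent.P123.SharpTwo

open Polynomial
open scoped InnerProductSpace

namespace Vale.Agent.Results.P123.CrouzeixConstantIsTwo

universe u

/-- **Crouzeix's constant is two**: `2` is the least real `C` such that
`‖p(A)‖ ≤ C * sup_{W(A)} |p|` for every nonzero complex Hilbert space, every bounded operator `A`
and every polynomial `p`. -/
theorem result : IsLeast {C : ℝ | ∀ (H : Type u) [NormedAddCommGroup H] [InnerProductSpace ℂ H]
    [CompleteSpace H] [Nontrivial H] (A : H →L[ℂ] H) (p : ℂ[X]) (M : ℝ),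
    (∀ x : H, ‖x‖ = 1 → ‖p.eval ⟪x, A x⟫_ℂ‖ ≤ M) → ‖aeval A p‖ ≤ C * M} 2 := by
  refine ⟨fun H _ _ _ _ A p M hM => Vale.Agent.P123.crouzeix A p M hM, fun C hC => ?_⟩
  have h1 : ∀ i : ULift.{u} (Fin 2), ‖EuclideanSpace.single (𝕜 := ℂ) i (1 : ℂ)‖ = 1 := by
    intro i; simp
  refine Vale.Agent.P123.two_le_of_orthonormal (h1 ⟨0⟩) (h1 ⟨1⟩) ?_
    (hC (EuclideanSpace ℂ (ULift.{u} (Fin 2))))
  have hne : (⟨0⟩ : ULift.{u} (Fin 2)) ≠ ⟨1⟩ := by
    intro h
    exact absurd (congrArg ULift.down h) (by decide)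
  rw [EuclideanSpace.inner_single_left]
  simp [hne]

end Vale.Agent.Results.P123.CrouzeixConstantIsTwo
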